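import Vale.Agent.P017.R3.H68.Char
import Vale.Agent.P017.R2.H217.Plug
import Vale.Agent.P017.R2.H918.BL

/-!
# P017, rows R3-B1 and R3-B2: unconditional forms
-/

namespace Vale.Agent.P017.R3.H68

open Vale.Agent.P017.R3

/-- (B1a) -/
theorem stmtPNT : StmtPNT := stmtPNT' Vale.Agent.P017.R2.H217.sw

/-- (B1b) -/
theorem stmtChar : StmtChar :=
  stmtChar' Vale.Agent.P017.R2.H217.sw Vale.Agent.P017.R2.H285.stmtPS1
    Vale.Agent.P017.R2.H285.stmtPS2 Vale.Agent.P017.R2.H918.stmtBL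

/-- (B2) -/
theorem stmtBad' : StmtBad := stmtBad stmtPNT stmtChar

end Vale.Agent.P017.R3.H68
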