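import Vale.Agent.P017.R3.Defs
import Vale.Agent.P017.R2.H285.Eq

/-!
# P017, row R3-B2: few bad `n` (StmtBad from StmtPNT, StmtChar)
-/

open Finset

namespace Vale.Agent.P017.R3.H68

open Vale.Agent.P017.R3
open Vale.Agent.P017.R2.H985 (bit PF Pat sym)
open Vale.Agent.P017.R2.H285 (sg sg_abs prod_exp jac_sqf zmod2)

open Classical in
theorem prod_pat {n p : ℕ} (hp : p.Prime) (hnp : ∀ q ∈ n.primeFactors, q < p) (φ : Pat n) :
    ∏ q ∈ n.primeFactors, (1 + sg φ q * (jacobiSym (p : ℤ) q : ℝ)) =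
      if sym n p = φ then (Fintype.card (Pat n) : ℝ) else 0 := by
  have hJ : ∀ q ∈ n.primeFactors, jacobiSym (p : ℤ) q = 1 ∨ jacobiSym (p : ℤ) q = -1 := by
    intro q hq
    apply jacobiSym.eq_one_or_neg_one
    rw [Int.gcd_natCast_natCast]
    have hqm := hnp q hq
    exact (Nat.coprime_primes hp (Nat.prime_of_mem_primeFactors hq)).mpr (by omega)
  split_ifs with h
  · have h1 : ∀ q ∈ n.primeFactors, (1 + sg φ q * (jacobiSym (p : ℤ) q : ℝ)) = 2 := by
      intro q hq
      have h2 : bit (p : ℤ) q = φ ⟨q, hq⟩ := congrFun h ⟨q, hq⟩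
      unfold sg
      rw [dif_pos hq]
      rcases hJ q hq with h3 | h3
      · have h4 : φ ⟨q, hq⟩ = 0 := by
          rw [← h2]; unfold bit; rw [if_neg (by rw [h3]; norm_num)]
        rw [if_pos h4, h3]; norm_num
      · have h4 : φ ⟨q, hq⟩ = 1 := by
          rw [← h2]; unfold bit; rw [if_pos h3]
        rw [if_neg (by rw [h4]; decide), h3]; norm_num
    rw [Finset.prod_congr rfl h1, Finset.prod_const]
    simp
  · obtain ⟨⟨q, hq⟩, hne⟩ : ∃ x, sym n p x ≠ φ x := by
      by_contra hcon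
      push Not at hcon
      exact h (funext hcon)
    apply Finset.prod_eq_zero hq
    have hne' : bit (p : ℤ) q ≠ φ ⟨q, hq⟩ := hne
    unfold sg
    rw [dif_pos hq]
    rcases hJ q hq with h3 | h3
    · have h4 : bit (p : ℤ) q = 0 := by unfold bit; rw [if_neg (by rw [h3]; norm_num)]
      rw [h4] at hne'
      rw [if_neg (Ne.symm hne'), h3]; norm_num
    · have h4 : bit (p : ℤ) q = 1 := by unfold bit; rw [if_pos h3]
      rw [h4] at hne'
      have h5 : φ ⟨q, hq⟩ = 0 := (zmod2 _).resolve_right (Ne.symm hne')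
      rw [if_pos h5, h3]; norm_num

theorem mem_Bx {l : ℝ} {j e p : ℕ} (hp : p ∈ Bx l j e) :
    p.Prime ∧ l ^ j < p ∧ (p : ℝ) ≤ l ^ (j + 1) ∧ p % 4 = e := by
  unfold Bx at hp
  rw [mem_filter, mem_Ioc] at hp
  obtain ⟨⟨h1, h2⟩, h3, h4⟩ := hp
  refine ⟨h3, ?_, ?_, h4⟩
  · exact (Nat.floor_lt' h3.ne_zero).1 h1
  · exact (Nat.le_floor_iff' h3.ne_zero).1 h2

/-- two-sided comparison -/
theorem pat_le {l : ℝ} {j e n : ℕ} (hn : Squarefree n)
    (hl : ∀ q : ℕ, q ∈ n.primeFactors → (q : ℝ) ≤ l ^ j) (φ : Pat n) :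
    |(Fintype.card (Pat n) : ℝ) * ∑ p ∈ (Bx l j e).filter (fun p => sym n p = φ), Real.log p -
      Th l j e 1| ≤ ∑ c ∈ n.divisors.erase 1, |Th l j e c| := by
  classical
  have h1 : (Fintype.card (Pat n) : ℝ) *
      ∑ p ∈ (Bx l j e).filter (fun p => sym n p = φ), Real.log p =
      ∑ p ∈ Bx l j e, Real.log p *
        ∏ q ∈ n.primeFactors, (1 + sg φ q * (jacobiSym (p : ℤ) q : ℝ)) := by
    rw [Finset.sum_filter, Finset.mul_sum]
    apply Finset.sum_congr rfl
    intro p hp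
    obtain ⟨h2, h3, -, -⟩ := mem_Bx hp
    rw [prod_pat h2 (fun q hq => by exact_mod_cast lt_of_le_of_lt (hl q hq) h3) φ]
    split_ifs
    · ring
    · simp
  have h3 : ∑ p ∈ Bx l j e, Real.log p *
      ∏ q ∈ n.primeFactors, (1 + sg φ q * (jacobiSym (p : ℤ) q : ℝ)) =
      ∑ d ∈ n.divisors, (∏ q ∈ d.primeFactors, sg φ q) * Th l j e d := by
    have h4 : ∀ p ∈ Bx l j e, Real.log p *
        ∏ q ∈ n.primeFactors, (1 + sg φ q * (jacobiSym (p : ℤ) q : ℝ)) =
        ∑ d ∈ n.divisors, (∏ q ∈ d.primeFactors, sg φ q) *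
          (Real.log p * (jacobiSym (p : ℤ) d : ℝ)) := by
      intro p _
      rw [prod_exp (fun q => sg φ q * (jacobiSym (p : ℤ) q : ℝ)) hn, Finset.mul_sum]
      apply Finset.sum_congr rfl
      intro d hd
      have hdm : Squarefree d := hn.squarefree_of_dvd (Nat.dvd_of_mem_divisors hd)
      rw [jac_sqf (p : ℤ) hdm, Finset.prod_mul_distrib]
      push_cast
      ring
    rw [Finset.sum_congr rfl h4, Finset.sum_comm]
    apply Finset.sum_congr rfl
    intro d _
    rw [Th, Finset.mul_sum]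
  rw [h1, h3, ← Finset.add_sum_erase _ _ (Nat.one_mem_divisors.mpr hn.ne_zero)]
  have h5 : (∏ q ∈ (1 : ℕ).primeFactors, sg φ q) * Th l j e 1 = Th l j e 1 := by
    rw [Nat.primeFactors_one, Finset.prod_empty, one_mul]
  rw [h5, add_sub_cancel_left]
  refine (Finset.abs_sum_le_sum_abs _ _).trans (Finset.sum_le_sum fun c _ => le_of_eq ?_)
  rw [abs_mul, Finset.abs_prod, Finset.prod_congr rfl fun q _ => sg_abs φ q,
    Finset.prod_const_one, one_mul]

/-- bad `n` have large character sums -/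
theorem bad_lt {l δ : ℝ} (hl1 : 1 < l) (hδ : 0 < δ) {j e n : ℕ} (hj : 1 ≤ j)
    (hjδ : 2 / δ ≤ j) (hn : Squarefree n)
    (hl : ∀ q : ℕ, q ∈ n.primeFactors → (q : ℝ) ≤ l ^ j) (hb : Bad l δ j e n) :
    δ / 4 * Th l j e 1 < ∑ c ∈ n.divisors.erase 1, |Th l j e c| := by
  classical
  obtain ⟨φ, hφ⟩ := hb
  set P : ℝ := (Fintype.card (Pat n) : ℝ) with hP
  set S := (Bx l j e).filter (fun p => sym n p = φ) with hS
  set R := ∑ c ∈ n.divisors.erase 1, |Th l j e c| with hR
  have hpat := pat_le (e := e) hn hl φ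
  rw [← hP, ← hS, ← hR] at hpat
  set g := Real.log l with hg
  have hg0 : 0 < g := Real.log_pos hl1
  have hjR : (1 : ℝ) ≤ j := by exact_mod_cast hj
  set L := (j : ℝ) * g with hL
  have hL0 : 0 < L := by positivity
  have hgL : g ≤ L := by rw [hL]; nlinarith
  have hP0 : 0 ≤ P := by positivity
  have hT1 : Th l j e 1 = ∑ p ∈ Bx l j e, Real.log p := by
    unfold Th
    refine Finset.sum_congr rfl fun p _ => ?_
    rw [jacobiSym.one_right]; simp
  -- logs in the box
  have hlog : ∀ p ∈ Bx l j e, L ≤ Real.log p ∧ Real.log p ≤ L + g := by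
    intro p hp
    obtain ⟨h2, h3, h4, -⟩ := mem_Bx hp
    have hp0 : (0 : ℝ) < p := by exact_mod_cast h2.pos
    constructor
    · rw [hL, hg, ← Real.log_pow]
      exact Real.log_le_log (by positivity) h3.le
    · have h5 := Real.log_le_log hp0 h4
      rw [Real.log_pow] at h5
      push_cast at h5
      rw [hL, hg]; linarith
  have hsum : ∀ W : Finset ℕ, W ⊆ Bx l j e →
      L * W.card ≤ ∑ p ∈ W, Real.log p ∧ ∑ p ∈ W, Real.log p ≤ (L + g) * W.card := by
    intro W hW
    constructor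
    · rw [mul_comm, ← nsmul_eq_mul]
      exact Finset.card_nsmul_le_sum _ _ _ fun p hp => (hlog p (hW hp)).1
    · rw [mul_comm, ← nsmul_eq_mul]
      exact Finset.sum_le_card_nsmul _ _ _ fun p hp => (hlog p (hW hp)).2
  obtain ⟨b1, b2⟩ := hsum (Bx l j e) subset_rfl
  obtain ⟨s1, s2⟩ := hsum S (Finset.filter_subset _ _)
  rw [hT1] at hpat ⊢
  set T := ∑ p ∈ Bx l j e, Real.log p with hT
  set Tφ := ∑ p ∈ S, Real.log p with hTφ
  set B : ℝ := ((Bx l j e).card : ℝ) with hB
  set s : ℝ := (S.card : ℝ) with hs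
  have hB0 : 0 ≤ B := by positivity
  have hs0 : 0 ≤ s := by positivity
  have hT0 : 0 ≤ T := le_trans (by positivity) b1
  have hR0 : 0 ≤ R := le_trans (abs_nonneg _) hpat
  obtain ⟨p1, p2⟩ := abs_le.1 hpat
  -- |P s - B| L (L + g) <= R (L + g) + T g
  have key : |P * s - B| * (L * (L + g)) ≤ R * (L + g) + T * g := by
    rcases le_total 0 (P * s - B) with h | h
    · rw [abs_of_nonneg h]
      have e1 : P * (L * s) ≤ P * Tφ := mul_le_mul_of_nonneg_left s1 hP0
      have e2 : P * s * L * (L + g) ≤ (T + R) * (L + g) := by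
        apply mul_le_mul_of_nonneg_right _ (by positivity)
        linarith
      have e3 : T * L ≤ (L + g) * B * L := mul_le_mul_of_nonneg_right b2 hL0.le
      have e4 : (P * s - B) * (L * (L + g)) = P * s * L * (L + g) - (L + g) * B * L := by ring
      have e5 : (T + R) * (L + g) - T * L = R * (L + g) + T * g := by ring
      linarith
    · rw [abs_of_nonpos h]
      have e1 : P * Tφ ≤ P * ((L + g) * s) := mul_le_mul_of_nonneg_left s2 hP0
      have e2 : (T - R) * L ≤ P * s * (L + g) * L := by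
        apply mul_le_mul_of_nonneg_right _ hL0.le
        linarith
      have e3 : L * B * (L + g) ≤ T * (L + g) := mul_le_mul_of_nonneg_right b1 (by positivity)
      have e4 : -(P * s - B) * (L * (L + g)) = L * B * (L + g) - P * s * (L + g) * L := by ring
      have e5 : T * (L + g) - (T - R) * L = R * L + T * g := by ring
      have e6 : R * L ≤ R * (L + g) := mul_le_mul_of_nonneg_left (by linarith) hR0
      linarith
  have h1 : δ * B * (L * (L + g)) < R * (L + g) + T * g :=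
    lt_of_lt_of_le (mul_lt_mul_of_pos_right hφ (by positivity)) key
  have h2 : δ * T * L ≤ δ * B * (L * (L + g)) := by
    calc δ * T * L = T * (δ * L) := by ring
      _ ≤ (L + g) * B * (δ * L) := mul_le_mul_of_nonneg_right b2 (by positivity)
      _ = _ := by ring
  have h3 : T * g ≤ δ / 2 * T * L := by
    have h4 : 1 ≤ δ / 2 * j := by
      rw [div_le_iff₀ hδ] at hjδ
      linarith
    calc T * g = T * g * 1 := by ring
      _ ≤ T * g * (δ / 2 * j) := mul_le_mul_of_nonneg_left h4 (by positivity)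
      _ = _ := by rw [hL]; ring
  have h5 : R * (L + g) ≤ R * (2 * L) := mul_le_mul_of_nonneg_left (by linarith) hR0
  have h6 : (δ / 4 * T) * (2 * L) < R * (2 * L) := by
    have h7 : (δ / 4 * T) * (2 * L) = δ * T * L - δ / 2 * T * L := by ring
    linarith
  exact lt_of_mul_lt_mul_right h6 (by positivity)

/-- (B2) -/
theorem stmtBad (hPNT : StmtPNT) (hChar : StmtChar) : StmtBad := by
  classical
  intro l hl1 hl2 A δ ε hδ hε
  have hl0 : 0 < l := by linarith
  set κ := δ * (l - 1) / 16 with hκ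
  have hκ0 : 0 < κ := by
    have : 0 < l - 1 := by linarith
    positivity
  obtain ⟨j₁, h1⟩ := hPNT l hl1 hl2 ((l - 1) / 4) (by linarith)
  obtain ⟨j₂, h2⟩ := hChar l hl1 hl2 A (ε * κ) (by positivity)
  refine ⟨max (max j₁ j₂) (max 1 ⌈2 / δ⌉₊), fun j hj e he Z hZ => ?_⟩
  have hj1 : j₁ ≤ j := le_trans (le_trans (le_max_left _ _) (le_max_left _ _)) hj
  have hj2 : j₂ ≤ j := le_trans (le_trans (le_max_right _ _) (le_max_left _ _)) hj
  have hj3 : 1 ≤ j := le_trans (le_trans (le_max_left _ _) (le_max_right _ _)) hj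
  have hj4 : 2 / δ ≤ j := le_trans (Nat.le_ceil _)
    (by exact_mod_cast le_trans (le_trans (le_max_right _ _) (le_max_right _ _)) hj)
  have hT := h1 j hj1 e he
  have hC := h2 j hj2 e he
  have hlj : 0 < l ^ j := by positivity
  have hT' : (l - 1) / 4 * l ^ j ≤ Th l j e 1 := by
    have := (abs_le.1 hT).1
    nlinarith
  set F := (Icc 1 Z).filter (fun n => Squarefree n ∧ Odd n ∧
    (∀ p : ℕ, p ∈ n.primeFactors → (p : ℝ) ≤ l ^ j) ∧ Bad l δ j e n) with hF
  set D := (Icc 2 ⌊l ^ (A * j)⌋₊).filter (fun c => Squarefree c ∧ Odd c) with hD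
  have hZfl : Z ≤ ⌊l ^ (A * j)⌋₊ := Nat.le_floor hZ
  -- pointwise
  have hpt : ∀ n ∈ F, 1 ≤ ∑ c ∈ D, (|Th l j e c| / (κ * l ^ j)) * (if c ∣ n then (1 : ℝ) else 0) := by
    intro n hn
    rw [hF, mem_filter, mem_Icc] at hn
    obtain ⟨⟨hn1, hn2⟩, hsq, hodd, hp, hbad⟩ := hn
    have h3 := bad_lt hl1 hδ hj3 hj4 hsq hp hbad
    have h4 : κ * l ^ j ≤ ∑ c ∈ n.divisors.erase 1, |Th l j e c| := by
      refine le_trans ?_ h3.le
      calc κ * l ^ j = δ / 4 * ((l - 1) / 4 * l ^ j) := by rw [hκ]; ring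
        _ ≤ δ / 4 * Th l j e 1 := mul_le_mul_of_nonneg_left hT' (by positivity)
    have hsub : n.divisors.erase 1 ⊆ D.filter (fun c => c ∣ n) := by
      intro c hc
      rw [mem_erase, Nat.mem_divisors] at hc
      obtain ⟨hc1, hcm, hn0⟩ := hc
      have hc0 : 0 < c := Nat.pos_of_dvd_of_pos hcm (by omega)
      have hcle : c ≤ n := Nat.le_of_dvd (by omega) hcm
      rw [mem_filter, hD, mem_filter, mem_Icc]
      exact ⟨⟨⟨by omega, by omega⟩, hsq.squarefree_of_dvd hcm, Odd.of_dvd_nat hodd hcm⟩, hcm⟩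
    have hle : ∑ c ∈ n.divisors.erase 1, |Th l j e c| ≤
        ∑ c ∈ D, |Th l j e c| * (if c ∣ n then 1 else 0) := by
      calc ∑ c ∈ n.divisors.erase 1, |Th l j e c| ≤
          ∑ c ∈ D.filter (fun c => c ∣ n), |Th l j e c| :=
            Finset.sum_le_sum_of_subset_of_nonneg hsub fun _ _ _ => abs_nonneg _
        _ = _ := by
            rw [Finset.sum_filter]
            refine Finset.sum_congr rfl fun c _ => ?_
            split_ifs <;> simp
    have h5 : 1 ≤ (∑ c ∈ D, |Th l j e c| * (if c ∣ n then 1 else 0)) / (κ * l ^ j) := by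
      rw [one_le_div (by positivity)]
      linarith
    refine h5.trans (le_of_eq ?_)
    rw [Finset.sum_div]
    refine Finset.sum_congr rfl fun c _ => ?_
    ring
  have hmult : ∀ c ∈ D, ∑ n ∈ F, (if c ∣ n then (1 : ℝ) else 0) ≤ (Z : ℝ) / c := by
    intro c hc
    rw [hD, mem_filter, mem_Icc] at hc
    calc ∑ n ∈ F, (if c ∣ n then (1 : ℝ) else 0)
        ≤ ∑ n ∈ Ioc 0 Z, (if c ∣ n then (1 : ℝ) else 0) := by
          apply Finset.sum_le_sum_of_subset_of_nonneg
          · intro n hn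
            rw [hF, mem_filter, mem_Icc] at hn
            rw [mem_Ioc]; omega
          · intro n _ _
            split_ifs <;> norm_num
      _ = ((Z / c : ℕ) : ℝ) := by
          rw [← Nat.Ioc_filter_dvd_card_eq_div, Finset.card_filter]
          push_cast
          rfl
      _ ≤ (Z : ℝ) / c := Nat.cast_div_le
  calc (F.card : ℝ) = ∑ n ∈ F, (1 : ℝ) := by simp
    _ ≤ ∑ n ∈ F, ∑ c ∈ D, (|Th l j e c| / (κ * l ^ j)) * (if c ∣ n then (1 : ℝ) else 0) :=
        Finset.sum_le_sum hpt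
    _ = ∑ c ∈ D, (|Th l j e c| / (κ * l ^ j)) * ∑ n ∈ F, (if c ∣ n then (1 : ℝ) else 0) := by
        rw [Finset.sum_comm]
        refine Finset.sum_congr rfl fun c _ => ?_
        rw [Finset.mul_sum]
    _ ≤ ∑ c ∈ D, (|Th l j e c| / (κ * l ^ j)) * ((Z : ℝ) / c) :=
        Finset.sum_le_sum fun c hc => mul_le_mul_of_nonneg_left (hmult c hc) (by positivity)
    _ = (Z / (κ * l ^ j)) * ∑ c ∈ D, |Th l j e c| / c := by
        rw [Finset.mul_sum]
        refine Finset.sum_congr rfl fun c _ => ?_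
        ring
    _ ≤ (Z / (κ * l ^ j)) * (ε * κ * l ^ j) := mul_le_mul_of_nonneg_left hC (by positivity)
    _ = ε * Z := by
        field_simp

end Vale.Agent.P017.R3.H68
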