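import Vale.Agent.P017.R3.H68.Pnt

/-!
# P017, row R3-B1: bilinear bound on a pair of dyadic blocks
-/

open Finset Filter

namespace Vale.Agent.P017.R3.H68

open Vale.Agent.P017.R3
open Vale.Agent.P017.R2.H217 (SW jac_abs_le not_square)
open Vale.Agent.P017.R2.H985 (StmtPS1 StmtPS2 StmtBL)

theorem chi_abs (a : ℤ) (b : ℕ) : |jacobiSym a b| ≤ 1 := by
  rcases jacobiSym.trichotomy a b with h | h | h <;> rw [h] <;> simp

theorem block (h1 : StmtPS1) (h2 : StmtPS2) (hBL : StmtBL) : ∃ C : ℝ, 0 < C ∧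
    ∀ (S : Finset ℕ), (∀ p ∈ S, Odd p) → ∀ (w : ℕ → ℝ) (Λ : ℝ), 0 < Λ → (∀ p ∈ S, |w p| ≤ Λ) →
    ∀ i k : ℕ, ∑ c ∈ (Ico (2 ^ i) (2 ^ (i + 1))).filter (fun c => Squarefree c ∧ Odd c),
      |∑ p ∈ S.filter (fun p => p ∈ Ico (2 ^ k) (2 ^ (k + 1))), w p * (jacobiSym p c : ℝ)| / c ≤
      C * Λ * 2 ^ k * (2 : ℝ) ^ (-(((min i k : ℕ) : ℝ) / 6)) * (((max i k : ℕ) : ℝ) + 1) ^ 4 := by
  obtain ⟨C, hC, hB⟩ := hBL
  refine ⟨C, hC, fun S hS w Λ hΛ hw i k => ?_⟩
  set T : ℕ → ℝ := fun c => ∑ p ∈ S.filter (fun p => p ∈ Ico (2 ^ k) (2 ^ (k + 1))),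
    w p * (jacobiSym p c : ℝ) with hT
  set s : ℕ → ℝ := fun c => if 0 ≤ T c then 1 else -1 with hs
  have hs1 : ∀ c, |s c| = 1 := by
    intro c; rw [hs]; simp only; split_ifs <;> simp
  have hsT : ∀ c, |T c| = s c * T c := by
    intro c; rw [hs]; simp only; split_ifs with h
    · rw [abs_of_nonneg h, one_mul]
    · rw [abs_of_neg (not_le.1 h)]; ring
  set a : ℕ → ℝ := fun c => if Squarefree c ∧ Odd c ∧ 2 ^ i ≤ c then s c * (2 ^ i / c) else 0
    with ha
  set b : ℕ → ℝ := fun p => if p ∈ S then w p / Λ else 0 with hb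
  have ha1 : ∀ c, |a c| ≤ 1 := by
    intro c
    rw [ha]; simp only
    split_ifs with h
    · have hc0 : (0 : ℝ) < 2 ^ i := by positivity
      have hc1 : (2 : ℝ) ^ i ≤ c := by exact_mod_cast h.2.2
      rw [abs_mul, hs1, one_mul, abs_of_nonneg (by positivity)]
      exact div_le_one_of_le₀ hc1 (by positivity)
    · simp
  have hb1 : ∀ p, |b p| ≤ 1 := by
    intro p
    rw [hb]; simp only
    split_ifs with h
    · rw [abs_div, abs_of_pos hΛ]
      exact div_le_one_of_le₀ (hw p h) hΛ.le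
    · simp
  have hsum : ∑ c ∈ Ico (2 ^ i) (2 ^ (i + 1)), ∑ p ∈ Ico (2 ^ k) (2 ^ (k + 1)),
      a c * b p * (jacobiSym p c : ℝ) = 2 ^ i / Λ *
      ∑ c ∈ (Ico (2 ^ i) (2 ^ (i + 1))).filter (fun c => Squarefree c ∧ Odd c), |T c| / c := by
    rw [mul_sum, sum_filter]
    refine sum_congr rfl fun c hc => ?_
    rw [mem_Ico] at hc
    have h3 : ∑ p ∈ Ico (2 ^ k) (2 ^ (k + 1)), a c * b p * (jacobiSym p c : ℝ) =
        a c * (T c / Λ) := by
      rw [hT]; simp only
      have h4 : S.filter (fun p => p ∈ Ico (2 ^ k) (2 ^ (k + 1))) =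
          (Ico (2 ^ k) (2 ^ (k + 1))).filter (fun p => p ∈ S) := by
        ext p; simp only [mem_filter, and_comm]
      rw [h4, sum_filter, sum_div, mul_sum]
      refine sum_congr rfl fun p _ => ?_
      rw [hb]; simp only
      split_ifs
      · ring
      · ring
    rw [h3, hsT]
    by_cases h : Squarefree c ∧ Odd c
    · rw [if_pos h, ha]; simp only
      rw [if_pos ⟨h.1, h.2, hc.1⟩]
      ring
    · rw [if_neg h, ha]; simp only
      rw [if_neg (fun h' => h ⟨h'.1, h'.2.1⟩), zero_mul]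
  have hkey : |∑ c ∈ Ico (2 ^ i) (2 ^ (i + 1)), ∑ p ∈ Ico (2 ^ k) (2 ^ (k + 1)),
      a c * b p * (jacobiSym p c : ℝ)| ≤
      C * 2 ^ i * 2 ^ k * (2 : ℝ) ^ (-(((min i k : ℕ) : ℝ) / 6)) *
        (((max i k : ℕ) : ℝ) + 1) ^ 4 := by
    rcases le_or_gt i k with hik | hik
    · rw [min_eq_left hik, max_eq_right hik]
      have h5 := hB (fun x n => jacobiSym n x) (fun x n => chi_abs _ _)
        (fun x n n' => by push_cast; exact jacobiSym.mul_left _ _ _)
        (fun x x' N N' hx hx' hsq => ?_) i k hik a b ha1 hb1 (fun n hn => ?_)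
      · exact h5
      · have h6 := (h2 (x * x') (hx.mul hx') hsq N N').1
        have h7 : ∑ n ∈ Ioc N N', jacobiSym n x * jacobiSym n x' =
            ∑ n ∈ Ioc N N', jacobiSym n (x * x') :=
          sum_congr rfl fun n _ => (jacobiSym.mul_right' _ (by
            rintro rfl; exact absurd hx (by decide)) (by
            rintro rfl; exact absurd hx' (by decide))).symm
        rw [h7]
        refine h6.trans ?_
        push_cast
        have : (0 : ℤ) ≤ (x : ℤ) * x' := by positivity
        nlinarith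
      · rw [ha]; simp only
        rw [if_neg]
        rintro ⟨_, h, _⟩
        exact (Nat.not_even_iff_odd.2 h) hn
    · rw [min_eq_right hik.le, max_eq_left hik.le]
      have h5 := hB (fun x n => if Odd n then jacobiSym x n else 0)
        (fun x n => by
          split_ifs
          · exact chi_abs _ _
          · simp)
        (fun x n n' => ?_)
        (fun x x' N N' hx hx' hsq => ?_) k i hik.le b a hb1 ha1 (fun n hn => ?_)
      · rw [sum_comm]
        have h8 : ∑ x ∈ Ico (2 ^ k) (2 ^ (k + 1)), ∑ n ∈ Ico (2 ^ i) (2 ^ (i + 1)),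
            a n * b x * (jacobiSym x n : ℝ) =
            ∑ x ∈ Ico (2 ^ k) (2 ^ (k + 1)), ∑ n ∈ Ico (2 ^ i) (2 ^ (i + 1)),
            b x * a n * ((if Odd n then jacobiSym x n else 0 : ℤ) : ℝ) := by
          refine sum_congr rfl fun x _ => sum_congr rfl fun n _ => ?_
          by_cases hn : Odd n
          · rw [if_pos hn]; ring
          · have : a n = 0 := by
              rw [ha]; simp only
              rw [if_neg]
              rintro ⟨_, h, _⟩
              exact hn h
            rw [this]; ring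
        rw [h8]
        refine h5.trans (le_of_eq ?_)
        ring
      · simp only [Nat.odd_mul]
        by_cases hn : Odd n
        · by_cases hn' : Odd n'
          · rw [if_pos ⟨hn, hn'⟩, if_pos hn, if_pos hn']
            exact jacobiSym.mul_right' _ (by
              rintro rfl; exact absurd hn (by decide)) (by
              rintro rfl; exact absurd hn' (by decide))
          · rw [if_neg (fun h => hn' h.2), if_neg hn', mul_zero]
        · rw [if_neg (fun h => hn h.1), if_neg hn, zero_mul]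
      · have h6 := h1 (x * x') (hx.mul hx') hsq N N'
        have h7 : ∑ n ∈ Ioc N N', (if Odd n then jacobiSym x n else 0) *
            (if Odd n then jacobiSym x' n else 0) =
            ∑ n ∈ (Ioc N N').filter Odd, jacobiSym ((x * x' : ℕ) : ℤ) n := by
          rw [sum_filter]
          refine sum_congr rfl fun n _ => ?_
          split_ifs
          · push_cast
            exact (jacobiSym.mul_left _ _ _).symm
          · ring
        rw [h7]
        refine h6.trans (le_of_eq ?_)
        push_cast; ring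
      · rw [hb]; simp only
        rw [if_neg]
        intro h
        exact (Nat.not_even_iff_odd.2 (hS n h)) hn
  rw [hsum, abs_of_nonneg (by positivity)] at hkey
  have h9 : (0 : ℝ) < 2 ^ i / Λ := by positivity
  have h10 : (2 : ℝ) ^ i / Λ * ∑ c ∈ (Ico (2 ^ i) (2 ^ (i + 1))).filter
        (fun c => Squarefree c ∧ Odd c), |T c| / c ≤
      2 ^ i / Λ * (C * Λ * 2 ^ k * (2 : ℝ) ^ (-(((min i k : ℕ) : ℝ) / 6)) *
        (((max i k : ℕ) : ℝ) + 1) ^ 4) := by
    refine hkey.trans (le_of_eq ?_)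
    field_simp
  exact le_of_mul_le_mul_left h10 h9

end Vale.Agent.P017.R3.H68
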