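import Vale.Agent.P017.R3.H68.Bad
import Vale.Agent.P017.R2.H217.Large

/-!
# P017, row R3-B1: primes in boxes, small conductors (StmtPNT)
-/

open Finset Filter

namespace Vale.Agent.P017.R3.H68

open ArithmeticFunction (vonMangoldt)
open Vale.Agent.P017.R3
open Vale.Agent.P017.R2.H217 (SW jac_abs_le complete_zero)
open Vale.Agent.P017.R2.H985 (StmtPS2)

/-- Chebyshev sum over the box in a class -/
noncomputable def PP (l : ℝ) (j q a : ℕ) : ℝ :=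
  ∑ n ∈ (Ioc ⌊l ^ j⌋₊ ⌊l ^ (j + 1)⌋₊).filter (fun n => n ≡ a [MOD q]), vonMangoldt n

theorem floor_mono {l : ℝ} (hl : 1 < l) (j : ℕ) : ⌊l ^ j⌋₊ ≤ ⌊l ^ (j + 1)⌋₊ :=
  Nat.floor_le_floor (pow_le_pow_right₀ hl.le (Nat.le_succ j))

theorem PP_eq {l : ℝ} (hl : 1 < l) (j q a : ℕ) : PP l j q a =
    (∑ n ∈ (Icc 1 ⌊l ^ (j + 1)⌋₊).filter (fun n => n ≡ a [MOD q]), vonMangoldt n) -
    ∑ n ∈ (Icc 1 ⌊l ^ j⌋₊).filter (fun n => n ≡ a [MOD q]), vonMangoldt n := by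
  have hfl := floor_mono hl j
  have h : Icc 1 ⌊l ^ (j + 1)⌋₊ = Icc 1 ⌊l ^ j⌋₊ ∪ Ioc ⌊l ^ j⌋₊ ⌊l ^ (j + 1)⌋₊ := by
    ext n; simp only [mem_Icc, mem_union, mem_Ioc]; omega
  have hd : Disjoint ((Icc 1 ⌊l ^ j⌋₊).filter (fun n => n ≡ a [MOD q]))
      ((Ioc ⌊l ^ j⌋₊ ⌊l ^ (j + 1)⌋₊).filter (fun n => n ≡ a [MOD q])) := by
    refine disjoint_filter_filter ?_
    rw [disjoint_left]; intro n h1 h2
    rw [mem_Icc] at h1; rw [mem_Ioc] at h2; omega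
  rw [h, filter_union, sum_union hd, PP]; ring

theorem psi_int (hsw : SW) {l : ℝ} (hl1 : 1 < l) (hl2 : l ≤ 2) (K : ℕ) (hK : 0 < K) :
    ∃ j₀ : ℕ, 1 ≤ j₀ ∧ ∀ j : ℕ, j₀ ≤ j → ∀ q a : ℕ, 1 ≤ q →
      (q : ℝ) ≤ (j * Real.log l) ^ K → Nat.Coprime a q →
      |PP l j q a - (l - 1) * l ^ j / (Nat.totient q : ℝ)| ≤ 3 * l ^ j / (j * Real.log l) ^ K := by
  obtain ⟨x₀, hx⟩ := hsw K (by exact_mod_cast hK)
  obtain ⟨j₁, hj₁⟩ := (tendsto_pow_atTop_atTop_of_one_lt hl1).eventually_ge_atTop x₀ |>.exists_forall_of_atTop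
  refine ⟨max 1 j₁, le_max_left _ _, fun j hj q a hq hqN ha => ?_⟩
  have hj1 : 1 ≤ j := (le_max_left _ _).trans hj
  have hjR : (1 : ℝ) ≤ j := by exact_mod_cast hj1
  have hg : 0 < Real.log l := Real.log_pos hl1
  have hL : 0 < j * Real.log l := by positivity
  have hlj : 0 < l ^ j := by positivity
  have hxj : x₀ ≤ l ^ j := hj₁ j ((le_max_right _ _).trans hj)
  have hxj' : x₀ ≤ l ^ (j + 1) := hj₁ (j + 1) (((le_max_right _ _).trans hj).trans (Nat.le_succ j))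
  have e1 : Real.log (l ^ j) = j * Real.log l := by rw [Real.log_pow]
  have e2 : Real.log (l ^ (j + 1)) = (j + 1) * Real.log l := by
    rw [Real.log_pow]; push_cast; ring
  have hLL : j * Real.log l ≤ (j + 1) * Real.log l := by nlinarith
  have h1 := hx (l ^ j) hxj q a hq (by rw [e1, Real.rpow_natCast]; exact hqN) ha
  have h2 := hx (l ^ (j + 1)) hxj' q a hq
    (by rw [e2, Real.rpow_natCast]
        exact hqN.trans (pow_le_pow_left₀ hL.le hLL K)) ha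
  rw [e1, Real.rpow_natCast] at h1
  rw [e2, Real.rpow_natCast] at h2
  have h3 : l ^ (j + 1) / ((j + 1) * Real.log l) ^ K ≤ 2 * l ^ j / (j * Real.log l) ^ K := by
    have h4 : l ^ (j + 1) ≤ 2 * l ^ j := by rw [pow_succ]; nlinarith
    gcongr
  rw [PP_eq hl1]
  have h4 : 3 * l ^ j / (j * Real.log l) ^ K =
      2 * l ^ j / (j * Real.log l) ^ K + l ^ j / (j * Real.log l) ^ K := by ring
  rw [h4]
  have h5 : (∑ n ∈ (Icc 1 ⌊l ^ (j + 1)⌋₊).filter (fun n => n ≡ a [MOD q]), vonMangoldt n) -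
      (∑ n ∈ (Icc 1 ⌊l ^ j⌋₊).filter (fun n => n ≡ a [MOD q]), vonMangoldt n) -
        (l - 1) * l ^ j / (Nat.totient q : ℝ) =
      ((∑ n ∈ (Icc 1 ⌊l ^ (j + 1)⌋₊).filter (fun n => n ≡ a [MOD q]), vonMangoldt n)
        - l ^ (j + 1) / (Nat.totient q : ℝ)) -
      ((∑ n ∈ (Icc 1 ⌊l ^ j⌋₊).filter (fun n => n ≡ a [MOD q]), vonMangoldt n)
        - l ^ j / (Nat.totient q : ℝ)) := by
    ring
  rw [h5]
  exact (abs_sub _ _).trans (add_le_add (h2.trans h3) h1)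

/-- the prime powers contribute little -/
theorem nonprime_le (M : ℕ) (hM : 1 ≤ M) (S : Finset ℕ)
    (hS : ∀ n ∈ S, 0 < n ∧ n ≤ M ∧ ¬ n.Prime) (w : ℕ → ℝ) (hw : ∀ n, |w n| ≤ 1) :
    |∑ n ∈ S, vonMangoldt n * w n| ≤ 2 * √(M : ℝ) * Real.log M := by
  have hM1 : (1 : ℝ) ≤ M := by exact_mod_cast hM
  refine le_trans ?_ (Chebyshev.psi_sub_theta_le hM1)
  rw [Chebyshev.psi_sub_theta_eq_sum_not_prime, Nat.floor_natCast]
  refine (abs_sum_le_sum_abs _ _).trans ?_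
  refine (sum_le_sum (g := fun n => vonMangoldt n) fun n _ => ?_).trans ?_
  · rw [abs_mul, abs_of_nonneg ArithmeticFunction.vonMangoldt_nonneg]
    exact mul_le_of_le_one_right ArithmeticFunction.vonMangoldt_nonneg (hw n)
  · refine sum_le_sum_of_subset_of_nonneg ?_ fun n _ _ => ArithmeticFunction.vonMangoldt_nonneg
    intro n hn
    obtain ⟨h1, h2, h3⟩ := hS n hn
    rw [mem_filter, mem_Ioc]
    exact ⟨⟨h1, h2⟩, h3⟩

/-- the same sum with `Λ` -/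
noncomputable def Psi (l : ℝ) (j e c : ℕ) : ℝ :=
  ∑ n ∈ (Ioc ⌊l ^ j⌋₊ ⌊l ^ (j + 1)⌋₊).filter (fun n => n % 4 = e),
    vonMangoldt n * (jacobiSym n c : ℝ)

theorem th_psi {l : ℝ} (hl1 : 1 < l) (hl2 : l ≤ 2) (j e c : ℕ) :
    |Th l j e c - Psi l j e c| ≤ 4 * √(l ^ j) * (1 + j * Real.log l) := by
  have hlj : 0 < l ^ j := by positivity
  have hlj1 : 1 ≤ l ^ j := one_le_pow₀ hl1.le
  have h1 : Psi l j e c = Th l j e c +
      ∑ n ∈ ((Ioc ⌊l ^ j⌋₊ ⌊l ^ (j + 1)⌋₊).filter (fun n => n % 4 = e)).filter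
        (fun n => ¬ n.Prime), vonMangoldt n * (jacobiSym n c : ℝ) := by
    rw [Psi, ← sum_filter_add_sum_filter_not _ (fun n => Nat.Prime n)]
    congr 1
    rw [Th, filter_filter, Bx]
    have h2 : (Ioc ⌊l ^ j⌋₊ ⌊l ^ (j + 1)⌋₊).filter (fun p => p.Prime ∧ p % 4 = e) =
        (Ioc ⌊l ^ j⌋₊ ⌊l ^ (j + 1)⌋₊).filter (fun a => a % 4 = e ∧ Nat.Prime a) := by
      ext n; simp only [mem_filter, and_comm]
    rw [h2]
    refine sum_congr rfl fun p hp => ?_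
    rw [mem_filter] at hp
    rw [ArithmeticFunction.vonMangoldt_apply_prime hp.2.2]
  rw [h1, sub_add_cancel_left, abs_neg]
  have hM : 1 ≤ ⌊l ^ (j + 1)⌋₊ := by
    rw [Nat.one_le_floor_iff]
    exact one_le_pow₀ hl1.le
  refine (nonprime_le ⌊l ^ (j + 1)⌋₊ hM _ ?_ _ fun n => jac_abs_le _ _).trans ?_
  · intro n hn
    rw [mem_filter, mem_filter, mem_Ioc] at hn
    exact ⟨by omega, hn.1.1.2, hn.2⟩
  · have h3 : ((⌊l ^ (j + 1)⌋₊ : ℕ) : ℝ) ≤ 2 * l ^ j := by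
      refine (Nat.floor_le (by positivity)).trans ?_
      rw [pow_succ]; nlinarith
    have hM' : (1 : ℝ) ≤ (⌊l ^ (j + 1)⌋₊ : ℕ) := by exact_mod_cast hM
    have h4 : √((⌊l ^ (j + 1)⌋₊ : ℕ) : ℝ) ≤ 2 * √(l ^ j) := by
      rw [show (2 : ℝ) * √(l ^ j) = √(4 * l ^ j) by
        rw [Real.sqrt_mul (by norm_num), show (4 : ℝ) = 2 ^ 2 by norm_num,
          Real.sqrt_sq (by norm_num)]]
      exact Real.sqrt_le_sqrt (by linarith)
    have h5 : Real.log ((⌊l ^ (j + 1)⌋₊ : ℕ) : ℝ) ≤ 1 + j * Real.log l := by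
      refine (Real.log_le_log (by linarith) h3).trans ?_
      rw [Real.log_mul (by norm_num) hlj.ne', Real.log_pow]
      have := Real.log_two_lt_d9
      linarith
    have h6 : 0 ≤ Real.log ((⌊l ^ (j + 1)⌋₊ : ℕ) : ℝ) := Real.log_nonneg hM'
    calc 2 * √((⌊l ^ (j + 1)⌋₊ : ℕ) : ℝ) * Real.log ((⌊l ^ (j + 1)⌋₊ : ℕ) : ℝ)
        ≤ 2 * (2 * √(l ^ j)) * (1 + j * Real.log l) := by gcongr
      _ = _ := by ring

/-- combine the two congruences -/
theorem crt_class (c : ℕ) (hc : Nat.Coprime 4 c) (r b : ℕ) (hr : r < 4) (hb : b < c)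
    (hrc : Nat.Coprime r 4) (hbc : Nat.Coprime b c) :
    ∃ a : ℕ, Nat.Coprime a (4 * c) ∧ ∀ n : ℕ, (n % 4 = r ∧ n % c = b) ↔ n ≡ a [MOD (4 * c)] := by
  obtain ⟨a, ha1, ha2⟩ := Nat.chineseRemainder hc r b
  refine ⟨a, ?_, fun n => ?_⟩
  · refine Nat.Coprime.mul_right ?_ ?_
    · have := ha1.gcd_eq
      rw [Nat.Coprime]; rw [this]; exact hrc
    · have := ha2.gcd_eq
      rw [Nat.Coprime]; rw [this]; exact hbc
  · rw [← Nat.modEq_and_modEq_iff_modEq_mul hc]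
    have e1 : a % 4 = r := by
      have := ha1; rw [Nat.ModEq, Nat.mod_eq_of_lt hr] at this; exact this
    have e2 : a % c = b := by
      have := ha2; rw [Nat.ModEq, Nat.mod_eq_of_lt hb] at this; exact this
    rw [Nat.ModEq, Nat.ModEq, e1, e2]

theorem psi_small {l : ℝ} {j e c : ℕ} (hPS : StmtPS2) (he : e = 1 ∨ e = 3) (hc2 : 2 ≤ c)
    (hsq : Squarefree c) (hodd : Odd c) {W D : ℝ}
    (hP : ∀ a : ℕ, Nat.Coprime a (4 * c) → |PP l j (4 * c) a - W| ≤ D) :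
    |Psi l j e c| ≤ c * D := by
  have he4 : e < 4 := by omega
  have hec : Nat.Coprime e 4 := by rcases he with h | h <;> rw [h] <;> decide
  have hcop : Nat.Coprime 4 c := by
    have h1 : Nat.Coprime 2 c := (Nat.coprime_two_left).2 hodd
    exact Nat.Coprime.pow_left 2 h1
  have hns : ¬ IsSquare c := by
    rintro ⟨m, rfl⟩
    have := hsq m (dvd_refl _)
    rw [Nat.isUnit_iff] at this
    subst this; norm_num at hc2
  have hz := complete_zero hPS c hodd hns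
  have hD : 0 ≤ D := by
    have := hP 1 (Nat.coprime_one_left _)
    exact (abs_nonneg _).trans this
  have h1 : Psi l j e c = ∑ b ∈ range c, (jacobiSym b c : ℝ) *
      ∑ n ∈ (Ioc ⌊l ^ j⌋₊ ⌊l ^ (j + 1)⌋₊).filter (fun n => n % 4 = e ∧ n % c = b),
        vonMangoldt n := by
    rw [Psi, ← sum_fiberwise_of_maps_to (g := fun n => n % c) (t := range c)
      (fun n _ => mem_range.2 (Nat.mod_lt _ (by omega)))]
    refine sum_congr rfl fun b _ => ?_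
    rw [filter_filter, mul_sum]
    refine sum_congr rfl fun n hn => ?_
    rw [mem_filter] at hn
    rw [mul_comm]
    congr 2
    refine jacobiSym.mod_left' ?_
    rw [← hn.2.2, Int.natCast_mod, Int.emod_emod]
  have h2 : Psi l j e c = ∑ b ∈ range c, (jacobiSym b c : ℝ) *
      ((∑ n ∈ (Ioc ⌊l ^ j⌋₊ ⌊l ^ (j + 1)⌋₊).filter (fun n => n % 4 = e ∧ n % c = b),
        vonMangoldt n) - W) := by
    have h3 : ∑ b ∈ range c, (jacobiSym b c : ℝ) = 0 := by exact_mod_cast hz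
    rw [h1]
    simp only [mul_sub]
    rw [sum_sub_distrib, ← sum_mul, h3, zero_mul, sub_zero]
  rw [h2]
  refine (abs_sum_le_sum_abs _ _).trans ?_
  have h4 : ∀ b ∈ range c, |(jacobiSym b c : ℝ) *
      ((∑ n ∈ (Ioc ⌊l ^ j⌋₊ ⌊l ^ (j + 1)⌋₊).filter (fun n => n % 4 = e ∧ n % c = b),
        vonMangoldt n) - W)| ≤ D := by
    intro b hb
    rw [mem_range] at hb
    by_cases hbc : Nat.Coprime b c
    · obtain ⟨a, ha, hiff⟩ := crt_class c hcop e b he4 hb hec hbc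
      have h5 : (Ioc ⌊l ^ j⌋₊ ⌊l ^ (j + 1)⌋₊).filter (fun n => n % 4 = e ∧ n % c = b) =
          (Ioc ⌊l ^ j⌋₊ ⌊l ^ (j + 1)⌋₊).filter (fun n => n ≡ a [MOD (4 * c)]) :=
        filter_congr fun n _ => hiff n
      rw [abs_mul, h5]
      refine (mul_le_of_le_one_left (abs_nonneg _) (jac_abs_le _ _)).trans ?_
      exact hP a ha
    · have h6 : jacobiSym b c = 0 := by
        rw [jacobiSym.eq_zero_iff]
        exact ⟨by omega, by rwa [Int.gcd_natCast_natCast]⟩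
      rw [h6]; simp [hD]
  refine (sum_le_sum h4).trans ?_
  rw [sum_const, card_range, nsmul_eq_mul]

/-- growth -/
theorem grow {l : ℝ} (hl1 : 1 < l) (m : ℕ) {s δ : ℝ} (hs : 0 < s) (hδ : 0 < δ) :
    ∃ j₀ : ℕ, ∀ j : ℕ, j₀ ≤ j → 1 / δ ≤ j * Real.log l ∧
      (j * Real.log l) ^ m ≤ δ * Real.exp (s * (j * Real.log l)) := by
  have hg : 0 < Real.log l := Real.log_pos hl1
  have hL : Tendsto (fun j : ℕ => (j : ℝ) * Real.log l) atTop atTop :=
    tendsto_natCast_atTop_atTop.atTop_mul_const hg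
  have h1 := hL.eventually_ge_atTop (1 / δ)
  have h0 := hL.eventually_ge_atTop 0
  have h2 : ∀ᶠ x : ℝ in atTop, ‖x ^ m‖ ≤ δ * ‖Real.exp (s * x)‖ := by
    have h3 := (isLittleO_pow_exp_pos_mul_atTop m hs).def hδ
    exact h3
  obtain ⟨j₀, hj₀⟩ := (h0.and (h1.and (hL.eventually h2))).exists_forall_of_atTop
  refine ⟨j₀, fun j hj => ?_⟩
  obtain ⟨a0, a1, a2⟩ := hj₀ j hj
  refine ⟨a1, ?_⟩
  rw [Real.norm_of_nonneg (by positivity), Real.norm_of_nonneg (by positivity)] at a2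
  exact a2

theorem exp_L {l : ℝ} (hl1 : 1 < l) (j : ℕ) : Real.exp (j * Real.log l) = l ^ j := by
  rw [← Real.log_pow, Real.exp_log (by positivity)]

theorem sqrt_L {l : ℝ} (hl1 : 1 < l) (j : ℕ) :
    √(l ^ j) = Real.exp (1 / 2 * (j * Real.log l)) := by
  rw [← exp_L hl1 j, Real.sqrt_eq_rpow, ← Real.exp_mul]
  congr 1; ring

/-- (B1a) -/
theorem stmtPNT' (hsw : SW) : StmtPNT := by
  intro l hl1 hl2 ε hε
  obtain ⟨j₁, hj₁, h1⟩ := psi_int hsw hl1 hl2 1 one_pos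
  obtain ⟨j₂, h2⟩ := grow hl1 1 (s := 1 / 2) (δ := min (1 / 4) (ε / 20)) (by norm_num) (by positivity)
  refine ⟨max j₁ j₂, fun j hj e he => ?_⟩
  obtain ⟨a1, a2⟩ := h2 j ((le_max_right _ _).trans hj)
  have hlj : 0 < l ^ j := by positivity
  set L := (j : ℝ) * Real.log l with hL
  have hδ1 : min (1 / 4) (ε / 20) ≤ 1 / 4 := min_le_left _ _
  have hδ2 : min (1 / 4) (ε / 20) ≤ ε / 20 := min_le_right _ _
  have hδ0 : 0 < min (1 / 4 : ℝ) (ε / 20) := by positivity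
  set δ := min (1 / 4 : ℝ) (ε / 20) with hδ
  have hL4 : 4 ≤ L := by
    refine le_trans ?_ a1
    rw [le_div_iff₀ hδ0]; linarith
  have hLinv : 1 / L ≤ δ := by
    rw [div_le_iff₀ (by linarith)]
    rw [div_le_iff₀ hδ0] at a1
    linarith
  rw [← sqrt_L hl1, pow_one] at a2
  have hec : Nat.Coprime e 4 := by rcases he with h | h <;> rw [h] <;> decide
  have h3 := h1 j ((le_max_left _ _).trans hj) 4 e (by norm_num) (by push_cast; rw [pow_one]; exact hL4) hec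
  have h4 : PP l j 4 e = Psi l j e 1 := by
    rw [PP, Psi]
    have h5 : (Ioc ⌊l ^ j⌋₊ ⌊l ^ (j + 1)⌋₊).filter (fun n => n ≡ e [MOD 4]) =
        (Ioc ⌊l ^ j⌋₊ ⌊l ^ (j + 1)⌋₊).filter (fun n => n % 4 = e) := by
      refine filter_congr fun n _ => ?_
      rw [Nat.ModEq, Nat.mod_eq_of_lt (by omega : e < 4)]
    rw [h5]
    refine sum_congr rfl fun n _ => ?_
    rw [jacobiSym.one_right]; push_cast; ring
  have h7 : (Nat.totient 4 : ℝ) = 2 := by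
    have : Nat.totient 4 = 2 := by decide
    rw [this]; norm_num
  rw [h4, h7, pow_one, ← hL] at h3
  have h6 := th_psi hl1 hl2 j e 1
  rw [← hL] at h6
  have h8 : 3 * l ^ j / L ≤ 3 * δ * l ^ j := by
    calc 3 * l ^ j / L = 3 * (1 / L) * l ^ j := by ring
      _ ≤ 3 * δ * l ^ j := by gcongr
  have h9 : 4 * √(l ^ j) * (1 + L) ≤ 8 * δ * l ^ j := by
    calc 4 * √(l ^ j) * (1 + L) ≤ 4 * √(l ^ j) * (2 * (δ * √(l ^ j))) := by
          gcongr; linarith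
      _ = 8 * δ * (√(l ^ j) * √(l ^ j)) := by ring
      _ = 8 * δ * l ^ j := by rw [Real.mul_self_sqrt hlj.le]
  have h10 : |Th l j e 1 - (l - 1) / 2 * l ^ j| ≤
      |Th l j e 1 - Psi l j e 1| + |Psi l j e 1 - (l - 1) * l ^ j / 2| := by
    have := abs_add_le (Th l j e 1 - Psi l j e 1) (Psi l j e 1 - (l - 1) * l ^ j / 2)
    have e : Th l j e 1 - Psi l j e 1 + (Psi l j e 1 - (l - 1) * l ^ j / 2) =
        Th l j e 1 - (l - 1) / 2 * l ^ j := by ring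
    rwa [e] at this
  calc |Th l j e 1 - (l - 1) / 2 * l ^ j| ≤ _ := h10
    _ ≤ 8 * δ * l ^ j + 3 * δ * l ^ j := add_le_add (h6.trans h9) (h3.trans h8)
    _ = 11 * δ * l ^ j := by ring
    _ ≤ ε * l ^ j := by
        apply mul_le_mul_of_nonneg_right _ hlj.le
        linarith

end Vale.Agent.P017.R3.H68
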